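import Vale.Agent.P224.S13.Piv.K00
import Vale.Agent.P224.S13.Piv.K01
import Vale.Agent.P224.S13.Piv.K02
import Vale.Agent.P224.S13.Piv.K03
import Vale.Agent.P224.S13.Piv.K04
import Vale.Agent.P224.S13.Piv.K05
import Vale.Agent.P224.S13.Piv.K06
import Vale.Agent.P224.S13.Piv.K07
import Vale.Agent.P224.S13.Piv.K08
import Vale.Agent.P224.S13.Piv.K09
import Vale.Agent.P224.S13.Piv.K10
import Vale.Agent.P224.S13.Piv.K11
import Vale.Agent.P224.S13.Piv.K12
import Vale.Agent.P224.S13.Piv.K13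
import Vale.Agent.P224.S13.Piv.K14
import Vale.Agent.P224.S13.Piv.K15
import Vale.Agent.P224.S13.Piv.K16
import Vale.Agent.P224.S13.Piv.K17
import Vale.Agent.P224.S13.Piv.K18
import Vale.Agent.P224.S13.Piv.K19
import Vale.Agent.P224.S13.Piv.K20
import Vale.Agent.P224.S13.Piv.K21
import Vale.Agent.P224.S13.Piv.K22
import Vale.Agent.P224.S13.Piv.K23
import Vale.Agent.P224.S13.Piv.K24
import Vale.Agent.P224.S13.Piv.K25
import Vale.Agent.P224.S13.Piv.K26
import Vale.Agent.P224.S13.Piv.K27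
import Vale.Agent.P224.S13.Piv.K28
import Vale.Agent.P224.S13.Piv.K29
import Vale.Agent.P224.S13.Piv.K30
import Vale.Agent.P224.S13.Piv.K31
import Vale.Agent.P224.S13.Piv.K32
import Vale.Agent.P224.S13.Piv.K33
import Vale.Agent.P224.S13.Piv.K34
import Vale.Agent.P224.S13.Piv.K35
import Vale.Agent.P224.S13.Piv.K36
import Vale.Agent.P224.S13.Piv.K37
import Vale.Agent.P224.S13.Piv.K38
import Vale.Agent.P224.S13.Piv.K39
import Vale.Agent.P224.S13.Piv.K40
import Vale.Agent.P224.S13.Piv.K41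
import Vale.Agent.P224.S13.Piv.K42
import Vale.Agent.P224.S13.Piv.K43
import Vale.Agent.P224.S13.Piv.K44
import Vale.Agent.P224.S13.Piv.K45

/-!
All column functions (order of the table `P224_S13_BP`).
-/
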