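import Vale.Agent.P224.S13.Small132

/-!
Smallness test with a general polynomial weight and pieces down to `1/128`.
-/

namespace Vale.Agent.P224.S13

open Set Real Vale.Agent.P224.SP

lemma om_bd5 {T : ℝ} (h1 : 1 / 128 ≤ T) (h2 : T ≤ 1 / 4) :
    |(P18 : ℝ) * om T| ≤ 2 * 10 ^ 19 := by
  have h3 := logE_bd
  have h4 := log_two_bd
  have h5 : Real.log (1 / 128) ≤ Real.log T := Real.log_le_log (by norm_num) h1
  have h6 : Real.log T ≤ 0 := Real.log_nonpos (by linarith) (by linarith)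
  have h7 : Real.log (1 / 128) = -(7 * Real.log 2) := by
    rw [one_div, Real.log_inv, show (128 : ℝ) = 2 ^ 7 by norm_num, Real.log_pow]
    push_cast; ring
  rw [h7] at h5
  unfold om P18
  push_cast
  rw [abs_le] at h3 h4 ⊢
  constructor <;> nlinarith [h3.1, h3.2, h4.1, h4.2]

lemma om_bd05 {T : ℝ} (h0 : 0 < T) (h2 : T ≤ 1 / 128) :
    |(P18 : ℝ) * (T * om T)| ≤ 9 * 10 ^ 16 := by
  have h3 := logE_bd
  have h4 := log_two_bd
  have h5 : Real.log (1 / 128 / T) ≤ 1 / 128 / T - 1 :=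
    Real.log_le_sub_one_of_pos (by positivity)
  have h7 : Real.log (1 / 128) = -(7 * Real.log 2) := by
    rw [one_div, Real.log_inv, show (128 : ℝ) = 2 ^ 7 by norm_num, Real.log_pow]
    push_cast; ring
  rw [Real.log_div (by norm_num) h0.ne', h7] at h5
  have h8 : T * (-(7 * Real.log 2) - Real.log T) ≤ T * (1 / 128 / T - 1) :=
    mul_le_mul_of_nonneg_left h5 h0.le
  have h9 : T * (1 / 128 / T - 1) = 1 / 128 - T := by field_simp
  rw [h9] at h8
  have h10 : Real.log T ≤ 0 := Real.log_nonpos h0.le (by linarith)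
  have h11 : T * Real.log T ≤ 0 := mul_nonpos_of_nonneg_of_nonpos h0.le h10
  rw [abs_le] at h3 h4
  have h12 : 0 ≤ Real.log (169 / 42) := Real.log_nonneg (by norm_num)
  have h13 : 1 ≤ 7 * Real.log 2 := by nlinarith [h4.1]
  have h14 : T * (7 * Real.log 2 - 1) ≤ 1 / 128 * (7 * Real.log 2 - 1) :=
    mul_le_mul_of_nonneg_right h2 (by linarith)
  have h15 : T * Real.log (169 / 42) ≤ 1 / 128 * Real.log (169 / 42) :=
    mul_le_mul_of_nonneg_right h2 h12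
  have h16 : 0 ≤ T * Real.log (169 / 42) := mul_nonneg h0.le h12
  unfold om P18
  push_cast
  rw [abs_le]
  constructor <;> nlinarith [h3.1, h3.2, h4.1, h4.2]

lemma wlL_bd5 {k : ℕ} (hk : k ≤ 7) {T : ℝ} (h1 : 1 / 2 ≤ 2 ^ k * T) (h2 : 2 ^ k * T ≤ 1) :
    |(P18 : ℝ) * om T - ev (wlL k) T| ≤ 25000 := by
  have h := lg_bd k h1 h2
  have h3 := logE_bd
  have hk' : (k : ℝ) ≤ 7 := by exact_mod_cast hk
  unfold wlL om P18
  rw [ev_addL, ev_smulL, ev_cons, ev_nil]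
  push_cast
  rw [abs_le] at h h3 ⊢
  constructor <;> nlinarith [h.1, h.2, h3.1, h3.2]

section

variable (n0 n1 n2 n3 wt : List ℤ) (a : ℕ)

/-- allowance, right -/
def rW5 : List ℤ :=
  addL (smulL (P18 * DR) (shl a wt))
    (smulL (-(P18 * ((sAbs n1 + sAbs n2 + sAbs n3) * REr))) (powZ 8))

/-- allowance on a left piece -/
def WL5 (X Z : ℤ) : List ℤ :=
  addL (smulL (P18 * DP) wt) (addL [-Z] (shl (24 - a) [-X]))

/-- test on `[A/d, B/d]` with the logarithm piece `k` -/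
def chkLp5 (k : ℕ) (A B d : ℤ) : Bool :=
  let m := mainL n0 n1 n2 n3 [] [] 0 (wlL k)
  let W := WL5 wt a (XL n0 n1 n2 n3 [] [] 0 (2 * 10 ^ 19)) (ZL n1 n2 n3 [] [] 0 a 25000)
  van a m && chk A B d (addL W (m.drop a)) && chk A B d (addL W (smulL (-1) (m.drop a)))

/-- crude coefficient of `T^a` -/
def ZL05 : ℤ := kap * (1 * (sQ 4 ((m1' n1 [] 0).drop a) + e1 n1 [] 0) +
  6 * (sQ 4 ((m3' n3 [] 0).drop a) + e3 n3 [] 0) +
  (9 * 10 ^ 16) * (sQ 128 ((mB' n1 n2 n3).drop (a + 1)) + (eB n1 n2 n3 / 128 ^ (23 - a) + 1)))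

/-- test on `(0, 1/128]` -/
def chkL05 : Bool :=
  let m := addL (smulL P18 (mA' n0 n1 n2 n3)) (smulL kap (addL (smulL nA (m1' n1 [] 0))
    (smulL nB (m3' n3 [] 0))))
  let W := WL5 wt a (XL n0 n1 n2 n3 [] [] 0 0) (ZL05 n1 n2 n3 a)
  van a m && chk 0 1 128 (addL W (m.drop a)) && chk 0 1 128 (addL W (smulL (-1) (m.drop a)))

variable {n0 n1 n2 n3 wt a}

/-- closing step -/
lemma close5 {T P FFv mv X Z Wv : ℝ} {m : List ℤ} (hT : 0 < T) (ha : a ≤ 24)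
    (hP : 0 < P) (hv : van a m = true) (hm : mv = ev m T)
    (hd : |P * FFv - mv| ≤ X * T ^ 24 + Z * T ^ a)
    (h1 : 0 ≤ (P * Wv - Z - T ^ (24 - a) * X) + ev (m.drop a) T)
    (h2 : 0 ≤ (P * Wv - Z - T ^ (24 - a) * X) - ev (m.drop a) T) :
    |FFv| ≤ T ^ a * Wv := by
  rw [hm, ev_van hv] at hd
  have h24 : T ^ 24 = T ^ a * T ^ (24 - a) := by rw [← pow_add]; congr 1; omega
  have hTa : 0 < T ^ a := pow_pos hT a
  have k1 := mul_nonneg hTa.le h1
  have k2 := mul_nonneg hTa.le h2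
  rw [h24] at hd
  rw [abs_le] at hd ⊢
  constructor
  · refine le_of_mul_le_mul_left ?_ hP
    nlinarith [hd.1]
  · refine le_of_mul_le_mul_left ?_ hP
    nlinarith [hd.2]

lemma ev_WL5 (X Z : ℤ) (T : ℝ) : ev (WL5 wt a X Z) T =
    (P18 * DP) * ev wt T - Z - T ^ (24 - a) * X := by
  unfold WL5
  simp only [ev_addL, ev_smulL, ev_shl, ev_cons, ev_nil]
  push_cast
  ring

theorem smallR5 {q : ℕ} (hq : q ≠ 0)
    (h1 : chkN q 1 4 4 (addL (rW5 n1 n2 n3 wt a) (rM n0 n1 n2 n3 [] [] 0)) = true)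
    (h2 : chkN q 1 4 4 (addL (rW5 n1 n2 n3 wt a)
      (smulL (-1) (rM n0 n1 n2 n3 [] [] 0))) = true) {T : ℝ} (hT : T ∈ Ioo (1 / 4 : ℝ) 1) :
    |FF n0 n1 n2 n3 [] [] 0 T| ≤ T ^ a * ev wt T := by
  have k1 := chk_of_mem h1 hq hT
  have k2 := chk_of_mem h2 hq hT
  have m1 := (ap_g1.pmul wtR n1) T hT
  have m2 := (ap_g2.pmul wtR n2) T hT
  have m3 := (ap_g3.pmul wtR n3) T hT
  have hF3 : F3 T = F3s T := by rw [F3_eq13]; rfl
  simp only [ev_mulL] at m1 m2 m3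
  push_cast at m1 m2 m3
  have hD := DR_pos
  rw [ev_addL] at k1 k2
  rw [ev_smulL (-1)] at k2
  have hP : (0 : ℝ) < P18 := by unfold P18; norm_num
  have hdiff : |(P18 : ℝ) * DR * FF n0 n1 n2 n3 [] [] 0 T - ev (rM n0 n1 n2 n3 [] [] 0) T| ≤
      P18 * ((sAbs n1 + sAbs n2 + sAbs n3) * REr * (1 - T) ^ 8) := by
    have e : (P18 : ℝ) * DR * FF n0 n1 n2 n3 [] [] 0 T - ev (rM n0 n1 n2 n3 [] [] 0) T =
        P18 * ((DR * (ev n1 T * f1 T) - ev n1 T * ev rg1 T) +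
          (DR * (ev n2 T * f2 T) - ev n2 T * ev rg2 T) +
          (DR * (ev n3 T * F3s T) - ev n3 T * ev rg3 T)) := by
      unfold FF rM
      rw [hF3]
      simp only [ev_addL, ev_smulL, ev_mulL, ev_powZ, ev_nil]
      push_cast
      ring
    rw [e]
    have r1 : |(DR * (ev n1 T * f1 T) - ev n1 T * ev rg1 T) +
          (DR * (ev n2 T * f2 T) - ev n2 T * ev rg2 T) +
          (DR * (ev n3 T * F3s T) - ev n3 T * ev rg3 T)| ≤
        (sAbs n1 + sAbs n2 + sAbs n3) * REr * (1 - T) ^ 8 := by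
      refine (abs_add_le _ _).trans ?_
      have := abs_add_le (DR * (ev n1 T * f1 T) - ev n1 T * ev rg1 T)
        (DR * (ev n2 T * f2 T) - ev n2 T * ev rg2 T)
      unfold wR at m1 m2 m3
      linarith
    rw [abs_mul, abs_of_pos hP]
    exact mul_le_mul_of_nonneg_left r1 hP.le
  have hW : ev (rW5 n1 n2 n3 wt a) T = P18 * DR * (T ^ a * ev wt T) -
      (P18 * ((sAbs n1 + sAbs n2 + sAbs n3) * REr * (1 - T) ^ 8)) := by
    unfold rW5
    simp only [ev_addL, ev_smulL, ev_powZ, ev_shl]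
    push_cast
    ring
  rw [hW] at k1 k2
  push_cast at k2
  have hPD : 0 < (P18 : ℝ) * DR := mul_pos hP hD
  rw [abs_le] at hdiff ⊢
  constructor
  · refine le_of_mul_le_mul_left ?_ hPD
    linarith [hdiff.1]
  · refine le_of_mul_le_mul_left ?_ hPD
    linarith [hdiff.2]

theorem smallLp5 {k : ℕ} (hk : k ≤ 7) (ha : a ≤ 23) {A B d : ℤ}
    (hv : vanT n1 n2 n3 [] [] 0 a = true)
    (h : chkLp5 n0 n1 n2 n3 wt a k A B d = true) {T : ℝ}
    (hT : T ∈ SL) (hT2 : 1 / 128 ≤ T) (hA : (A : ℝ) ≤ d * T) (hB : d * T ≤ B)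
    (hk1 : 1 / 2 ≤ 2 ^ k * T) (hk2 : 2 ^ k * T ≤ 1) :
    |FF n0 n1 n2 n3 [] [] 0 T| ≤ T ^ a * ev wt T := by
  simp only [vanT, Bool.and_eq_true] at hv
  obtain ⟨⟨v1, v3⟩, vB⟩ := hv
  simp only [chkLp5, Bool.and_eq_true] at h
  obtain ⟨⟨hv, c1⟩, c2⟩ := h
  have k1 := nonneg_of_chk c1 hA hB
  have k2 := nonneg_of_chk c2 hA hB
  rw [ev_addL, ev_WL5] at k1 k2
  rw [ev_smulL] at k2
  have h0 : 0 < T := hT.1
  have h14 : T ≤ 1 / 4 := hT.2
  have hq : ((4 : ℕ) : ℝ) * T ≤ 1 := by push_cast; linarith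
  have hw : (0 : ℝ) ≤ T ^ 24 := by positivity
  have hwa : T ^ 24 ≤ T ^ a := pow_le_pow_of_le_one h0.le (by linarith) (by omega)
  have hmain := left_core (P := P18) (DP := DP) (DY := DY) (κ := kap)
    (wa := T ^ a) (w := T ^ 24) (EW := 25000) (KW := 2 * 10 ^ 19) (EA := 1) (E3 := 6)
    (nA := nA) (n3 := nB) (cA := cA) (c3 := cB) (om := om T) (wl := ev (wlL k) T)
    hwa kap_nonneg P18_pos.le (by exact_mod_cast DP_eq)
    (ap_A n0 n1 n2 n3 T hT) (ap_U1 n1 [] 0 T hT) (ap_U3 n3 [] 0 T hT) (ap_H n1 n2 n3 T hT)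
    e1_nonneg e3_nonneg (by norm_num) (by norm_num) cA_bd cB_bd (wlL_bd5 hk hk1 hk2)
    (om_bd5 hT2 h14)
    (abs_ev_le_sQ_van (q := 4) (by norm_num) v1 h0.le hq)
    (abs_ev_le_sQ_van (q := 4) (by norm_num) v3 h0.le hq)
    (abs_ev_le_sQ_van (q := 4) (by norm_num) (van_mono vB (Nat.le_succ a)) h0.le hq)
  rw [← FF_left n0 n1 n2 n3 [] [] 0 h0 (by linarith)] at hmain
  have hnA : |((nA : ℤ) : ℝ)| = nA := abs_of_nonneg (by unfold nA; norm_num)
  have hnB : |((nB : ℤ) : ℝ)| = nB := abs_of_nonneg (by unfold nB; norm_num)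
  rw [hnA, hnB] at hmain
  refine close5 (m := mainL n0 n1 n2 n3 [] [] 0 (wlL k)) (P := P18 * DP)
    (X := XL n0 n1 n2 n3 [] [] 0 (2 * 10 ^ 19)) (Z := ZL n1 n2 n3 [] [] 0 a 25000)
    h0 (by omega) (mul_pos P18_pos DP_pos) hv rfl ?_ k1
    (by push_cast at k2 ⊢; linarith)
  refine le_trans (le_of_eq ?_) (hmain.trans (le_of_eq ?_))
  · congr 1
    unfold mainL
    simp only [ev_addL, ev_smulL, ev_mulL, mA', m1', m3', mB']
    push_cast
    ring
  · unfold XL ZL m1' m3' mB'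
    push_cast
    ring

theorem smallL05 (ha : a ≤ 23)
    (hv : vanT n1 n2 n3 [] [] 0 a = true)
    (h : chkL05 n0 n1 n2 n3 wt a = true) {T : ℝ}
    (h0 : 0 < T) (hT2 : T ≤ 1 / 128) :
    |FF n0 n1 n2 n3 [] [] 0 T| ≤ T ^ a * ev wt T := by
  have hT : T ∈ SL := ⟨h0, by linarith⟩
  simp only [vanT, Bool.and_eq_true] at hv
  obtain ⟨⟨v1, v3⟩, vB⟩ := hv
  simp only [chkL05, Bool.and_eq_true] at h
  obtain ⟨⟨hv, c1⟩, c2⟩ := h
  have hA : ((0 : ℤ) : ℝ) ≤ ((128 : ℤ) : ℝ) * T := by push_cast; linarith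
  have hB : ((128 : ℤ) : ℝ) * T ≤ ((1 : ℤ) : ℝ) := by push_cast; linarith
  have k1 := nonneg_of_chk c1 hA hB
  have k2 := nonneg_of_chk c2 hA hB
  rw [ev_addL, ev_WL5] at k1 k2
  rw [ev_smulL] at k2
  have hq : ((4 : ℕ) : ℝ) * T ≤ 1 := by push_cast; linarith
  have hq32 : ((128 : ℕ) : ℝ) * T ≤ 1 := by push_cast; linarith
  have hw : (0 : ℝ) ≤ T ^ 24 := by positivity
  have hwa : T ^ 24 ≤ T ^ a := pow_le_pow_of_le_one h0.le (by linarith) (by omega)
  have hHB : |(DY : ℝ) * (ev n1 T * y1 T + 2 * (ev n2 T * y12 T) + ev n3 T * b13 T) -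
      ev (mB' n1 n2 n3) T| ≤ ((eB n1 n2 n3 / 128 ^ (23 - a) + 1 : ℤ) : ℝ) * (T * T ^ a) := by
    refine (ap_H n1 n2 n3 T hT).trans ?_
    unfold wL
    have e24 : T ^ 24 = (T * T ^ a) * T ^ (23 - a) := by
      rw [← pow_succ', ← pow_add]; congr 1; omega
    have hx : T ^ (23 - a) ≤ (1 / 128) ^ (23 - a) := pow_le_pow_left₀ h0.le hT2 _
    have hz : (eB n1 n2 n3 : ℝ) * (1 / 128) ^ (23 - a) ≤
        ((eB n1 n2 n3 / 128 ^ (23 - a) + 1 : ℤ) : ℝ) := by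
      rw [one_div, inv_pow, ← div_eq_mul_inv, div_le_iff₀ (by positivity)]
      have h5 : eB n1 n2 n3 < (eB n1 n2 n3 / 128 ^ (23 - a) + 1) * 128 ^ (23 - a) :=
        Int.lt_ediv_add_one_mul_self _ (by positivity)
      have : ((eB n1 n2 n3 : ℤ) : ℝ) ≤
          (((eB n1 n2 n3 / 128 ^ (23 - a) + 1) * 128 ^ (23 - a) : ℤ) : ℝ) := by
        exact_mod_cast h5.le
      push_cast at this ⊢
      exact this
    rw [e24]
    calc (eB n1 n2 n3 : ℝ) * (T * T ^ a * T ^ (23 - a))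
        ≤ (eB n1 n2 n3 : ℝ) * (T * T ^ a * (1 / 128) ^ (23 - a)) :=
          mul_le_mul_of_nonneg_left (mul_le_mul_of_nonneg_left hx (by positivity)) eB_nonneg
      _ = ((eB n1 n2 n3 : ℝ) * (1 / 128) ^ (23 - a)) * (T * T ^ a) := by ring
      _ ≤ _ := mul_le_mul_of_nonneg_right hz (by positivity)
  have hmain := left_core0 (P := P18) (DP := DP) (DY := DY) (κ := kap) (T := T)
    (wa := T ^ a) (w := T ^ 24) (KT := 9 * 10 ^ 16) (EA := 1) (E3 := 6)
    (nA := nA) (n3 := nB) (cA := cA) (c3 := cB) (om := om T) (w1 := T * T ^ a)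
    (sB := sQ 128 ((mB' n1 n2 n3).drop (a + 1)))
    h0 hwa rfl kap_nonneg P18_pos.le (by exact_mod_cast DP_eq)
    (ap_A n0 n1 n2 n3 T hT) (ap_U1 n1 [] 0 T hT) (ap_U3 n3 [] 0 T hT) hHB
    e1_nonneg e3_nonneg (by norm_num) (by norm_num) cA_bd cB_bd
    (om_bd05 h0 hT2)
    (abs_ev_le_sQ_van (q := 4) (by norm_num) v1 h0.le hq)
    (abs_ev_le_sQ_van (q := 4) (by norm_num) v3 h0.le hq)
    (by
      have := abs_ev_le_sQ_van (q := 128) (by norm_num) vB h0.le hq32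
      rw [pow_succ'] at this
      exact this)
  rw [← FF_left n0 n1 n2 n3 [] [] 0 h0 (by linarith)] at hmain
  have hnA : |((nA : ℤ) : ℝ)| = nA := abs_of_nonneg (by unfold nA; norm_num)
  have hnB : |((nB : ℤ) : ℝ)| = nB := abs_of_nonneg (by unfold nB; norm_num)
  rw [hnA, hnB] at hmain
  refine close5 (m := addL (smulL P18 (mA' n0 n1 n2 n3)) (smulL kap (addL (smulL nA (m1' n1 [] 0))
    (smulL nB (m3' n3 [] 0))))) (P := P18 * DP)
    (X := XL n0 n1 n2 n3 [] [] 0 0) (Z := ZL05 n1 n2 n3 a)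
    h0 (by omega) (mul_pos P18_pos DP_pos) hv rfl ?_ k1
    (by push_cast at k2 ⊢; linarith)
  refine le_trans (le_of_eq ?_) (hmain.trans (le_of_eq ?_))
  · congr 1
    simp only [ev_addL, ev_smulL, mA', m1', m3']
  · unfold XL ZL05 m1' m3' mB'
    push_cast
    ring

/-- **smallness theorem**, general weight -/
theorem small5 {q : ℕ} (hq : q ≠ 0) (ha : a ≤ 23)
    (hv : vanT n1 n2 n3 [] [] 0 a = true)
    (h0 : chkL05 n0 n1 n2 n3 wt a = true)
    (h6 : chkLp5 n0 n1 n2 n3 wt a 6 1 2 128 = true)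
    (h5 : chkLp5 n0 n1 n2 n3 wt a 5 1 2 64 = true)
    (h4 : chkLp5 n0 n1 n2 n3 wt a 4 1 2 32 = true)
    (h3 : chkLp5 n0 n1 n2 n3 wt a 3 1 2 16 = true)
    (h2 : chkLp5 n0 n1 n2 n3 wt a 2 1 2 8 = true)
    (r1 : chkN q 1 4 4 (addL (rW5 n1 n2 n3 wt a) (rM n0 n1 n2 n3 [] [] 0)) = true)
    (r2 : chkN q 1 4 4 (addL (rW5 n1 n2 n3 wt a)
      (smulL (-1) (rM n0 n1 n2 n3 [] [] 0))) = true) {T : ℝ} (hT0 : 0 < T) (hT1 : T < 1) :
    |FF n0 n1 n2 n3 [] [] 0 T| ≤ T ^ a * ev wt T := by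
  rcases le_or_gt T (1 / 4) with hT | hT
  · have hSL : T ∈ SL := ⟨hT0, hT⟩
    rcases le_or_gt T (1 / 128) with hT7 | hT7
    · exact smallL05 ha hv h0 hT0 hT7
    · rcases le_or_gt T (1 / 64) with hT6 | hT6
      · exact smallLp5 (k := 6) (by norm_num) ha hv h6 hSL hT7.le (by push_cast; linarith)
          (by push_cast; linarith) (by linarith) (by linarith)
      · rcases le_or_gt T (1 / 32) with hT5 | hT5
        · exact smallLp5 (k := 5) (by norm_num) ha hv h5 hSL hT7.le (by push_cast; linarith)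
            (by push_cast; linarith) (by linarith) (by linarith)
        · rcases le_or_gt T (1 / 16) with hT4 | hT4
          · exact smallLp5 (k := 4) (by norm_num) ha hv h4 hSL hT7.le (by push_cast; linarith)
              (by push_cast; linarith) (by linarith) (by linarith)
          · rcases le_or_gt T (1 / 8) with hT3 | hT3
            · exact smallLp5 (k := 3) (by norm_num) ha hv h3 hSL hT7.le (by push_cast; linarith)
                (by push_cast; linarith) (by linarith) (by linarith)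
            · exact smallLp5 (k := 2) (by norm_num) ha hv h2 hSL hT7.le (by push_cast; linarith)
                (by push_cast; linarith) (by linarith) (by linarith)
  · exact smallR5 hq r1 r2 ⟨hT, hT1⟩

end

end Vale.Agent.P224.S13
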